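import Vale.Agent.P287D.Tf.St
import Vale.Agent.P287D.Sc.St

/-!
# P287D, tigers: the cut of the volume bounds (statements and glue)
-/

set_option linter.unusedVariables false

open Set

noncomputable section

namespace Vale.Agent.P287D.Tx

open Tf

section defs

variable {K K' : Type} [Field K] [Algebra ℂ K] [Field K'] [Algebra ℂ K']

/-- a canonical weak Fano variety in the frame `y` -/
structure Ba (n : ℕ) (y : Fin (n + 1) → K) (N : BD K) : Prop where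
  fk : FF K (n + 1)
  ind : AlgebraicIndependent ℂ y
  smp : Smp N
  big : Big N
  nn : 0 ≤ kap y + N
  bdy : ∀ Q, On n N Q → (kap y + N) Q ≤ 0

/-- the state together with a generalised pair whose nef part is big on `P` -/
structure Gs (n : ℕ) (φ : K →+* K') (y : Fin (n + 1) → K) (N : BD K) (ε : ℝ) (Δ₀ Δ : BD K')
    (P : Pl K') : Prop extends Sta n φ y N ε Δ P where
  car : Δ₀ ∈ Car K'
  nn0 : 0 ≤ Δ₀
  le : Δ₀ ≤ Δ
  eq : Δ₀ P = Δ P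
  smp0 : Smp (ε • pb φ N - Δ₀)
  big0 : Big (res P (ε • pb φ N - Δ₀))

/-- the restriction of `N` to the centre -/
def Nc {φ : K →+* K'} {P : Pl K'} (h : Trv φ P) (N : BD K) : BD (Ce h) := pb (ps h) N

/-- the output of subadjunction on a surface -/
def Sa (ε : ℝ) (N : BD K) : Prop :=
  ∃ Z : BD K, Z + (1 - ε) • N + cn K 2 ∈ Prn K ∧ ∀ Q, On 1 N Q → 0 ≤ Z Q

end defs

/-- a statement for all states -/
def ForG (P : ∀ (n : ℕ) (K K' : Type) [Field K] [Algebra ℂ K] [Field K'] [Algebra ℂ K']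
    (φ : K →+* K') (y : Fin (n + 1) → K) (N : BD K) (ε : ℝ) (Δ₀ Δ : BD K') (Q : Pl K'),
    Trv φ Q → Prop) : Prop :=
  ∀ (n : ℕ) (K K' : Type) [Field K] [Algebra ℂ K] [Field K'] [Algebra ℂ K'] (φ : K →+* K')
    (y : Fin (n + 1) → K) (N : BD K) (ε : ℝ) (Δ₀ Δ : BD K') (Q : Pl K')
    (h : Gs n φ y N ε Δ₀ Δ Q), P n K K' φ y N ε Δ₀ Δ Q h.trv

/-- a state exists -/
def Ex {K : Type} [Field K] [Algebra ℂ K] (n : ℕ) (y : Fin (n + 1) → K) (N : BD K) (ε : ℝ)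
    (ok : ℕ → Prop) : Prop :=
  ∃ (K' : Type) (_ : Field K') (_ : Algebra ℂ K') (φ : K →+* K') (Δ₀ Δ : BD K') (P : Pl K')
    (h : Gs n φ y N ε Δ₀ Δ P) (k : ℕ), FF (Ce h.trv) k ∧ ok k

/-- **T1**: a large volume gives a state -/
def T1 : Prop := ∀ (n : ℕ) (ε : ℝ), 0 < ε → ε < 1 → ∃ c : ℝ, ∀ (K : Type) [Field K] [Algebra ℂ K]
  (y : Fin (n + 1) → K) (N : BD K), Ba n y N → c < vol (n + 1) N → Ex n y N ε (· ≤ n)

/-- **T2**: a divisor of large degree is cut -/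
def T2 : Prop := ∀ (n : ℕ) (ε : ℝ), 0 < ε → 2 * ε < 1 → ∃ c : ℝ, ∀ (K K' : Type) [Field K]
  [Algebra ℂ K] [Field K'] [Algebra ℂ K'] (φ : K →+* K') (y : Fin (n + 1) → K) (N : BD K)
  (Δ₀ Δ : BD K') (P : Pl K'), Ba n y N → Gs n φ y N ε Δ₀ Δ P → On n (pb φ N) P →
    c < vol n (res P (pb φ N)) → Ex n y N (2 * ε) (· < n)

/-- **CEN**: the centre is normal -/
def CEN : Prop := ForG fun n K K' _ _ _ _ φ y N ε Δ₀ Δ P h => Smp (Nc h N) ∧ Big (Nc h N) ∧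
  fld (res P (pb φ N)) = Ce h ∧ res P (pb φ N) - pb (inc (Ce h)) (Nc h N) ∈ Prn P.κ ∧
    (FF (Ce h) n → On n (pb φ N) P)

/-- **MV**: the canonical class of a moving subvariety -/
def MV : Prop := ForG fun n K K' _ _ _ _ φ y N ε Δ₀ Δ P h => ∀ k, FF (Ce h) k →
  ∃ f, f ≠ 0 ∧ 0 ≤ cn (Ce h) k + dv f + Nc h N

/-- **SA1**: curve centres -/
def SA1 : Prop := ForG fun n K K' _ _ _ _ φ y N ε Δ₀ Δ P h => FF (Ce h) 1 →
  pg (Ce h) 1 = 0 ∧ (1 - ε) * I1 (Nc h N) ≤ 2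

/-- **SA2**: surface centres of codimension at most two -/
def SA2 : Prop := ForG fun n K K' _ _ _ _ φ y N ε Δ₀ Δ P h => n ≤ 3 → FF (Ce h) 2 →
  Sa ε (Nc h N)

/-- **SL0**: points -/
def SL0 : Prop := ∀ (M : Type) [Field M] [Algebra ℂ M] (N : BD M), FF M 0 →
  ∃ x : Fin 0 → M, Sl 0 1 0 N x

/-- **SL1**: lines -/
def SL1 : Prop := ∀ (M : Type) [Field M] [Algebra ℂ M] (N : BD M), FF M 1 → pg M 1 = 0 →
  Smp N → I1 N ≤ 4 → ∃ x : Fin 1 → M, Sl 1 1 4 N x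

/-- **SL2**: the bounded model of a surface -/
def SL2 : Prop := ∃ ε₀ η C : ℝ, 0 < ε₀ ∧ 0 < η ∧ η ≤ 1 ∧ ∀ (M : Type) [Field M] [Algebra ℂ M]
  (N : BD M) (ε : ℝ), FF M 2 → Smp N → Big N → 0 ≤ ε → ε ≤ ε₀ →
    (∃ f, f ≠ 0 ∧ 0 ≤ cn M 2 + dv f + N) → Sa ε N → ∃ x : Fin 2 → M, Sl 2 η C N x

/-- **FRM**: the frame -/
def FRM : Prop := ForS fun n K _ _ => ∀ G : BD K, Smp (-G) → Big (-G) → 0 ≤ dsc (n + 1) G →
  Bdy n (-G) G → ∃ (y : Fin (n + 1) → K) (N : BD K), Ba n y N ∧ N + G ∈ Prn K ∧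
    vol (n + 1) N = vol (n + 1) (-G)

open Classical in
/-- **PNC**: a moving prime divisor of bounded degree gives a pencil -/
def PNC : Prop := ∀ (K K' : Type) [Field K] [Algebra ℂ K] [Field K'] [Algebra ℂ K']
  (φ : K →+* K') (Λ Γ N : BD K) (P : Pl K'), FF K 4 → FF K' 4 → Fano1 3 Λ → Term 3 Λ Γ →
  N + Γ ∈ Prn K → Ext ⊥ φ → Trv φ P → On 3 (pb φ N) P → ∃ (f : K) (w : ℝ), Transcendental ℂ f ∧
    Eff (w • (-Γ) - mx {1, f}) ∧ w * vol 4 (-Γ) ≤ vol 3 (res P (pb φ N))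

/-- **FAN**: a terminal Fano variety is a canonical weak Fano variety -/
def FAN : Prop := ForS fun n K _ _ => ∀ Λ Γ : BD K, Fano1 n Λ → Term n Λ Γ →
  Smp (-Γ) ∧ Big (-Γ) ∧ 0 ≤ dsc (n + 1) Γ ∧ Bdy n (-Γ) Γ

/-- centres of dimension at most two do not occur -/
theorem low (t : T36) (ce : CEN) (mv : MV) (a1 : SA1) (a2 : SA2) (l0 : SL0) (l1 : SL1) (l2 : SL2) :
    ∃ ε₀ : ℝ, 0 < ε₀ ∧ ε₀ < 1 / 2 ∧ ∀ n ≤ 3, ∀ ε ≤ ε₀, ∀ (K : Type) [Field K] [Algebra ℂ K]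
      (y : Fin (n + 1) → K) (N : BD K), ¬ Ex n y N ε (· ≤ 2) := by
  obtain ⟨e, η, C, he, hη, hη1, l2⟩ := l2
  have p : 0 < η / (2 * |C| + 1) := by positivity
  refine ⟨min (min e (1 / 8)) (η / (2 * |C| + 1)), by positivity,
    ((min_le_left _ _).trans (min_le_right _ _)).trans_lt (by norm_num), ?_⟩
  rintro n hn ε hε K _ _ y N ⟨K', _, _, φ, Δ₀, Δ, P, h, k, hk, k2⟩
  simp only [le_min_iff] at hε
  obtain ⟨⟨e1, e2⟩, e3⟩ := hε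
  have e0 := h.e0
  obtain ⟨s, b, -⟩ := ce n K K' φ y N ε Δ₀ Δ P h
  have k2 : k ≤ 2 := k2
  interval_cases k
  · obtain ⟨x, hx⟩ := l0 _ (Nc h.trv N) hk
    exact t n 0 K K' φ y N ε 1 0 Δ P h.toSta x hx le_rfl (by simp)
  · obtain ⟨g, d⟩ := a1 n K K' φ y N ε Δ₀ Δ P h hk
    have d4 : I1 (Nc h.trv N) ≤ 4 := by
      by_contra c
      push Not at c
      nlinarith
    obtain ⟨x, hx⟩ := l1 _ (Nc h.trv N) hk g s d4
    exact t n 1 K K' φ y N ε 1 4 Δ P h.toSta x hx le_rfl (by push_cast; linarith)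
  · obtain ⟨x, hx⟩ := l2 _ (Nc h.trv N) ε hk s b e0 e1 (mv n K K' φ y N ε Δ₀ Δ P h 2 hk)
      (a2 n K K' φ y N ε Δ₀ Δ P h hn hk)
    refine t n 2 K K' φ y N ε η C Δ P h.toSta x hx hη1 ?_
    rw [le_div_iff₀ (by positivity)] at e3
    have := le_abs_self C
    rcases e0.eq_or_lt with z | z
    · rw [← z]
      simpa using hη
    · push_cast
      nlinarith

theorem vol3_of (fr : FRM) (t1 : T1) (t : T36) (ce : CEN) (mv : MV) (a1 : SA1) (a2 : SA2)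
    (l0 : SL0) (l1 : SL1) (l2 : SL2) : Sc.VOL3 := by
  obtain ⟨ε, e0, e1, h⟩ := low t ce mv a1 a2 l0 l1 l2
  obtain ⟨c, t1⟩ := t1 2 ε e0 (by linarith)
  refine ⟨c, fun K _ _ hK G s b d y => ?_⟩
  obtain ⟨y, N, a, -, v⟩ := fr 2 K hK G s b d y
  by_contra q
  exact h 2 (by norm_num) ε le_rfl K y N (t1 K y N a (v ▸ not_le.1 q))

theorem dich_of (fr : FRM) (fa : FAN) (pn : PNC) (t1 : T1) (t2 : T2) (t : T36) (ce : CEN) (mv : MV)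
    (a1 : SA1) (a2 : SA2) (l0 : SL0) (l1 : SL1) (l2 : SL2) : Sc.DICH := by
  obtain ⟨ε, e0, e1, h⟩ := low t ce mv a1 a2 l0 l1 l2
  obtain ⟨c, t1⟩ := t1 3 (ε / 2) (by linarith) (by linarith)
  obtain ⟨c', t2⟩ := t2 3 (ε / 2) (by linarith) (by linarith)
  refine ⟨max c c', fun K _ _ hK Λ Γ hF hT => ?_⟩
  obtain ⟨s, b, d, y⟩ := fa 3 K hK Λ Γ hF hT
  obtain ⟨y, N, a, p, v⟩ := fr 3 K hK Γ s b d y
  by_cases q : vol 4 (-Γ) ≤ c
  · exact .inl (q.trans (le_max_left _ _))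
  obtain ⟨K', _, _, φ, Δ₀, Δ, P, g, k, hk, k3⟩ := t1 K y N a (v ▸ not_le.1 q)
  have k3 : k ≤ 3 := k3
  rcases k3.eq_or_lt with rfl | k2
  · have o := (ce 3 K K' φ y N _ Δ₀ Δ P g).2.2.2.2 hk
    by_cases r : vol 3 (res P (pb φ N)) ≤ c'
    · obtain ⟨f, w, u, u', u''⟩ := pn K K' φ Λ Γ N P hK g.fk' hF hT p g.ext g.trv o
      exact .inr ⟨f, w, u, u', u''.trans (r.trans (le_max_right _ _))⟩
    · obtain ⟨K₂, _, _, φ₂, D₀, D, Q, g₂, j, hj, j2⟩ := t2 K K' φ y N Δ₀ Δ P a g o (not_le.1 r)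
      exact absurd ⟨K₂, _, _, φ₂, D₀, D, Q, g₂, j, hj, Nat.lt_succ_iff.1 j2⟩
        (h 3 le_rfl _ (by linarith) K y N)
  · exact absurd ⟨K', _, _, φ, Δ₀, Δ, P, g, k, hk, Nat.lt_succ_iff.1 k2⟩
      (h 3 le_rfl _ (by linarith) K y N)

end Vale.Agent.P287D.Tx
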